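import Vale.Agent.P011IR.IF

/-!
P011I (helper30): the relations of rank one.
-/

set_option autoImplicit false
set_option linter.all false

noncomputable section

namespace Vale.Agent.P011IV

open Matrix Vale.Agent.P183CH Vale.Agent.P183CH.Chev Vale.Agent.P092AG Vale.Agent.P092GP
  Vale.Agent.P011I Vale.Agent.P011IR Vale.Agent.P092GP.LD

variable {k G : Type} [Field k] [Group G] {L : LD k G} {γ : L.R.Q} {P Q : Mt L.n (Polynomial k)}
  {x y : k → G} {i : Fin L.R.r}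

theorem cv_zero (h : Cv L γ P x) : x 0 = 1 := by simpa using h.add 0 0

theorem cv_neg (h : Cv L γ P x) (t : k) : x (-t) = (x t)⁻¹ :=
  eq_inv_of_mul_eq_one_left (by rw [← h.add, neg_add_cancel, cv_zero h])

theorem cv_inj (h : Cv L γ P x) {s t : k} (e : x s = x t) : s = t :=
  sub_eq_zero.1 (h.inj _ (by rw [sub_eq_add_neg, h.add, cv_neg h, e, mul_inv_cancel]))

theorem cv_mem (h : Cv L γ P x) (t : k) : x t ∈ L.X γ := (h.mem _).2 ⟨t, rfl⟩

theorem dg_conj (φ : Fin L.n → ℤ) (t : kˣ) (M : Mt L.n k) (a b : Fin L.n) :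
    ((dgU φ t).1 * M * (dgU φ t)⁻¹.1) a b = (t : k) ^ (φ a - φ b) * M a b := by
  show (diagonal _ * M * diagonal _ : Mt L.n k) a b = _
  rw [mul_diagonal, diagonal_mul, zpow_sub₀ t.ne_zero]
  simp only [Units.val_zpow_eq_zpow_val, Units.val_inv_eq_inv_val]
  ring

/-- diagonal matrices scale the parameter -/
theorem cv_sc (h : Cv L γ P x) {φ : Fin L.n → ℤ} {e : ℤ}
    (hφ : ∀ a b (m : ℕ), L.wt a = L.wt b + (L.N * m) • γ → φ a - φ b = e * m) (t : kˣ) (s : k) :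
    L.ρ (x ((t : k) ^ e * s)) = (dgU φ t).1 * L.ρ (x s) * (dgU φ t)⁻¹.1 := by
  ext a b
  rw [dg_conj, h.ev, h.ev, map_apply, map_apply, Polynomial.eval_eq_sum, Polynomial.eval_eq_sum,
    Polynomial.sum, Polynomial.sum, Finset.mul_sum]
  refine Finset.sum_congr rfl fun m hm => ?_
  rw [hφ a b m (h.deg a b m (Polynomial.mem_support_iff.1 hm)), mul_pow, _root_.zpow_mul,
    zpow_natCast]
  ring

theorem cv_scale (h : Cv L γ P x) {c : k} (hc : c ≠ 0) :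
    Cv L γ (P.map fun p => p.comp (Polynomial.C c * Polynomial.X)) fun s => x (c * s) where
  ev t := by
    rw [h.ev]
    ext a b
    simp [Polynomial.eval_comp]
  add s t := by rw [mul_add, h.add]
  mem g := (h.mem g).trans ⟨fun ⟨t, e⟩ => ⟨c⁻¹ * t, by rw [mul_inv_cancel_left₀ hc, e]⟩,
    fun ⟨t, e⟩ => ⟨_, e⟩⟩
  inj t e := (mul_eq_zero.1 (h.inj _ e)).resolve_left hc
  deg a b m e := by
    rw [map_apply, Polynomial.comp_C_mul_X_coeff] at e
    exact h.deg a b m (left_ne_zero_of_mul e)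
  one := let ⟨a, b, e⟩ := h.one
    ⟨a, b, by rw [map_apply, Polynomial.comp_C_mul_X_coeff]; exact mul_ne_zero e (pow_ne_zero _ hc)⟩

theorem rep_dg {g g' : G} {w : L.R.Q → L.R.Q} (h : L.Rep g w) {φ : Fin L.n → ℤ} {t : kˣ}
    (e : L.ρ g' = (dgU φ t).1 * L.ρ g * (dgU φ t)⁻¹.1) : L.Rep g' w := fun a b c => by
  rw [e, dg_conj, h a b c, mul_zero]

variable (H : L.Ok)

include H

/-- uniqueness of the decompositions of the representatives of a reflection -/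
theorem un {w : L.R.Aut} (hw : w γ = -γ) {h : Fin L.R.r → ℝ} (hh : 0 < pr γ h)
    {u v v' r r' : G} (a : v ∈ L.X γ) (a' : v' ∈ L.X γ) (b : r ∈ L.X γ) (b' : r' ∈ L.X γ)
    (c : L.Rep (v * u * v') w) (d : L.Rep (r * u * r') w) : v = r ∧ v' = r' := by
  have h1 : v * r⁻¹ = 1 := by
    refine H.eq_one_of_U (X_le_U hh (mul_mem a (inv_mem b))) ?_
    have := mul_mem (X_le_P (h := -h) (by rw [hw, pr_neg, pr_neg', neg_neg]; exact hh.le)
      (c.conj_X (mul_mem (inv_mem a') b'))) (Z0_le_P _ (c.div d).1)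
    rwa [show v * u * v' * (v'⁻¹ * r') * (v * u * v')⁻¹ * (v * u * v' * (r * u * r')⁻¹) = v * r⁻¹ by
      group] at this
  obtain rfl := mul_inv_eq_one.1 h1
  refine ⟨rfl, inv_mul_eq_one.1 (H.eq_one_of_U (X_le_U hh (mul_mem (inv_mem a') b')) ?_)⟩
  have := Z0_le_P (-h) (c.div d).2
  rwa [show (v * u * v')⁻¹ * (v * u * r') = v'⁻¹ * r' by group] at this

theorem un_pos {u v v' r r' : G} (a : v ∈ L.X (L.R.α i)) (a' : v' ∈ L.X (L.R.α i))
    (b : r ∈ L.X (L.R.α i)) (b' : r' ∈ L.X (L.R.α i)) (c : L.Rep (v * u * v') (L.R.sE i))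
    (d : L.Rep (r * u * r') (L.R.sE i)) : v = r ∧ v' = r' :=
  un H (H.root.sE_α i) (h := 1) (by rw [pr_α]; exact one_pos) a a' b b' c d

theorem un_neg {u v v' r r' : G} (a : v ∈ L.X (-L.R.α i)) (a' : v' ∈ L.X (-L.R.α i))
    (b : r ∈ L.X (-L.R.α i)) (b' : r' ∈ L.X (-L.R.α i)) (c : L.Rep (v * u * v') (L.R.sE i))
    (d : L.Rep (r * u * r') (L.R.sE i)) : v = r ∧ v' = r' :=
  un H (by rw [map_neg, H.root.sE_α i]) (h := -1)
    (by rw [pr_neg, pr_neg', neg_neg, pr_α]; exact one_pos) a a' b b' c d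

theorem fl_add (a b : Fin L.n) (m : ℤ) (e : L.wt a i = L.wt b i + L.N * m) :
    L.wt a i / L.N - L.wt b i / L.N = m := by
  rw [e, Int.add_mul_ediv_left _ _ (by exact_mod_cast H.npos.ne')]
  ring

/-- the scaled representatives -/
theorem sc_rep (hx : Cv L (L.R.α i) P x) (hy : Cv L (-L.R.α i) Q y) (t : kˣ) (s s' : k) :
    L.ρ (y ((t⁻¹ : kˣ) * s) * x t * y ((t⁻¹ : kˣ) * s')) =
      (dgU (fun a => L.wt a i / L.N) t).1 * L.ρ (y s * x 1 * y s') *
        (dgU (fun a => L.wt a i / L.N) t)⁻¹.1 := by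
  have h1 := cv_sc hx (φ := fun a => L.wt a i / L.N) (e := 1) (fun a b m e => by
    rw [one_mul]
    exact fl_add H a b m (by simpa [RS.α] using congrFun e i)) t 1
  have h2 := cv_sc hy (φ := fun a => L.wt a i / L.N) (e := -1) (fun a b m e =>
    fl_add H a b _ (by simpa [RS.α] using congrFun e i)) t
  rw [zpow_one, mul_one] at h1
  simp only [_root_.zpow_neg, zpow_one, ← Units.val_inv_eq_inv_val] at h2
  simp only [map_mul, h1, h2, mul_assoc, Units.inv_mul_cancel_left]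

theorem normal (hx : Cv L (L.R.α i) P x) (hy : Cv L (-L.R.α i) Q y) :
    ∃ Q' y', Cv L (-L.R.α i) Q' y' ∧ L.Rep (y' (-1) * x 1 * y' (-1)) (L.R.sE i) := by
  have h0 : x 1 ≠ 1 := fun e => one_ne_zero (hx.inj 1 e)
  obtain ⟨v, a, v', b, c⟩ := H.weyl' (cv_mem hx 1) h0
  obtain ⟨s, rfl⟩ := (hy.mem v).1 a
  obtain ⟨s', rfl⟩ := (hy.mem v').1 b
  have h1 := rep_dg c (sc_rep H hx hy (-1) s s')
  have h2 := c.inv
  rw [H.root.sE_inv, _root_.mul_inv_rev, _root_.mul_inv_rev, ← mul_assoc, ← cv_neg hx] at h2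
  rw [Units.val_neg, Units.val_one] at h1
  obtain rfl : s = s' := by
    have := (un_neg H (cv_mem hy _) (cv_mem hy _) (inv_mem b) (inv_mem a) h1 h2).1
    rw [← cv_neg hy] at this
    simpa using cv_inj hy this
  have h3 : s ≠ 0 := by
    rintro rfl
    rw [cv_zero hy, one_mul, mul_one] at c
    have := c.conj_X (cv_mem hx 1)
    rw [mul_inv_cancel_right, H.root.sE_α] at this
    exact h0 (H.eq_one_of_U (X_le_U (h := 1) (by rw [pr_α]; exact one_pos) (cv_mem hx 1))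
      (X_le_P (by rw [pr_neg, pr_neg', neg_neg, pr_α]; exact zero_le_one) this))
  exact ⟨_, _, cv_scale hy (neg_ne_zero.2 h3), by simpa using c⟩

theorem dvd_pr (hx : Cv L (L.R.α i) P x) (hy : Cv L (-L.R.α i) Q y) {s t s' : k}
    (c : L.Rep (y s * x t * y s') (L.R.sE i)) (b : Fin L.n) : (L.N : ℤ) ∣ L.R.pr (L.wt b) i := by
  let E : AddSubmonoid L.R.Q :=
    { carrier := {μ | (L.N : ℤ) ∣ μ i}
      zero_mem' := dvd_zero _
      add_mem' := dvd_add }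
  have h1 : ∀ {γ P} {x : k → G}, Cv L γ P x → ∀ t, x t ∈ PD L.wt L.ρ E := fun {γ P x} h t =>
    sup_iff.2 fun a b e => by
      rw [h.ev, map_apply, Polynomial.eval_eq_sum] at e
      obtain ⟨m, hm, -⟩ := Finset.exists_ne_zero_of_sum_ne_zero e
      refine ⟨m * γ i, ?_⟩
      rw [h.deg a b m (Polynomial.mem_support_iff.1 hm)]
      simp [mul_assoc]
  obtain ⟨σ, e⟩ := P092GP.exists_perm (rho_det_ne (ρ := L.ρ) (y s * x t * y s'))
  have h2 : (L.N : ℤ) ∣ (L.wt (σ b) - L.wt b) i :=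
    sup_iff.1 (mul_mem (mul_mem (h1 hy s) (h1 hx t)) (h1 hy s')) _ _ (e b)
  rw [ty_iff.1 c _ _ (e b), H.root.sE_eq] at h2
  simpa [RS.α] using h2

theorem one (hx : Cv L (L.R.α i) P x) (hy : Cv L (-L.R.α i) Q y)
    (c : L.Rep (y (-1) * x 1 * y (-1)) (L.R.sE i)) : ∃ (μ : Fin L.n → ℤ) (h : kˣ → G),
    (∀ a, (L.N : ℤ) * μ a = L.R.pr (L.wt a) i) ∧ (∀ u, L.ρ (h u) = (dgU μ u).1) ∧
    (∀ (t s : k) (u : kˣ), (u : k) = 1 + t * s → x t * y s = y (s / u) * h u * x (t / u)) ∧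
    ∀ t : kˣ, L.Rep (y (-(t⁻¹ : kˣ)) * x t * y (-(t⁻¹ : kˣ))) (L.R.sE i) ∧
      y (-(t⁻¹ : kˣ)) * x t * y (-(t⁻¹ : kˣ)) = h t * (y (-1) * x 1 * y (-1)) := by
  choose μ hμ using dvd_pr H hx hy c
  have hN : (L.N : ℤ) ≠ 0 := by exact_mod_cast H.npos.ne'
  obtain ⟨n, hn⟩ : ∃ n : kˣ → G, ∀ t, n t = y (-(t⁻¹ : kˣ)) * x t * y (-(t⁻¹ : kˣ)) :=
    ⟨_, fun _ => rfl⟩
  have n1 : n 1 = y (-1) * x 1 * y (-1) := by simp [hn]
  have h1 := fun t => sc_rep H hx hy t (-1) (-1)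
  simp only [mul_neg, mul_one, ← hn, ← n1] at h1
  rw [← n1] at c
  have h2 : ∀ t, L.Rep (n t) (L.R.sE i) := fun t => rep_dg c (h1 t)
  have h3 : ∀ t, L.ρ (n t * (n 1)⁻¹) = (dgU μ t).1 := fun t => by
    have : L.ρ (n t) = (dgU μ t).1 * L.ρ (n 1) := by
      ext a b
      rw [h1, dg_conj]
      show _ = (diagonal _ * _ : Mt L.n k) a b
      rw [diagonal_mul, Units.val_zpow_eq_zpow_val]
      by_cases e : L.ρ (n 1) a b = 0
      · rw [e, mul_zero, mul_zero]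
      · have d := congrFun (congrArg (L.R.sE i) (ty_iff.1 c _ _ e)) i
        rw [H.root.sE_sE, H.root.sE_eq, hμ] at d
        rw [fl_add H a b (μ a) (by simp [RS.α] at d; omega)]
    rw [map_mul, this, mul_assoc, rho_mul_inv, mul_one]
  obtain ⟨h, hh⟩ : ∃ h : kˣ → G, ∀ t, h t = n t * (n 1)⁻¹ := ⟨_, fun _ => rfl⟩
  simp only [← hh] at h3
  have h4 : ∀ t, n t = h t * n 1 := fun t => by rw [hh, inv_mul_cancel_right]
  have h5 : ∀ s t, h (s * t) = h s * h t := fun s t => H.inj (by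
    rw [map_mul, h3, h3, h3, map_mul, Units.val_mul])
  have h6 : ∀ (u : kˣ) r, h u * x r * (h u)⁻¹ = x ((u : k) ^ 2 * r) := fun u r => H.inj (by
    have := cv_sc hx (φ := μ) (e := 2) (fun a b m e => mul_left_cancel₀ hN (by
      rw [mul_sub, ← hμ, ← hμ, e, ← RS.prL_apply, map_add, map_nsmul, RS.prL_apply, RS.prL_apply,
        RS.pr_α, H.root.diag]
      simp only [nsmul_eq_mul]
      push_cast
      ring)) u r
    rw [zpow_ofNat] at this
    rw [this, map_mul, map_mul, h3, show L.ρ (h u)⁻¹ = (dgU μ u)⁻¹.1 from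
      (Units.inv_eq_of_mul_eq_one_right (h3 u ▸ rho_mul_inv _)).symm])
  have h7 : ∀ t : kˣ, n t * y (-(t⁻¹ : kˣ)) * (n t)⁻¹ = x t := fun t => by
    have a := (h2 t).conj_X (cv_mem hy (-(t⁻¹ : kˣ)))
    have b := (h2 t).inv.conj_X (cv_mem hy (-(t⁻¹ : kˣ)))
    rw [H.root.sE_inv] at b
    rw [map_neg, H.root.sE_α, neg_neg] at a b
    refine (un_pos H (u := y (-(t⁻¹ : kˣ))) a (cv_mem hx t) (cv_mem hx t) b ?_ ?_).1
    · rw [show n t * y (-(t⁻¹ : kˣ)) * (n t)⁻¹ * y (-(t⁻¹ : kˣ)) * x t = n t by rw [hn]; group]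
      exact h2 t
    · rw [show x t * y (-(t⁻¹ : kˣ)) * ((n t)⁻¹ * y (-(t⁻¹ : kˣ)) * (n t)⁻¹⁻¹) = n t by
        rw [hn]; group]
      exact h2 t
  have h8 : ∀ (t : kˣ) (s : k), n t * y s * (n t)⁻¹ = x (-((t : k) ^ 2 * s)) := fun t s => by
    rcases eq_or_ne s 0 with rfl | e
    · rw [cv_zero hy, mul_zero, neg_zero, cv_zero hx, mul_one, mul_inv_cancel]
    · let r : kˣ := -(Units.mk0 s e)⁻¹
      have a := h7 r
      rw [show (-(r⁻¹ : kˣ) : k) = s by simp [r]] at a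
      rw [show n t = h (t * r⁻¹) * n r by rw [h4 r, ← mul_assoc, ← h5, inv_mul_cancel_right, h4],
        show h (t * r⁻¹) * n r * y s * (h (t * r⁻¹) * n r)⁻¹ =
          h (t * r⁻¹) * (n r * y s * (n r)⁻¹) * (h (t * r⁻¹))⁻¹ by group, a, h6]
      congr 1
      simp only [r, Units.val_mul, Units.val_inv_eq_inv_val, Units.val_neg, Units.val_mk0]
      field_simp
  refine ⟨μ, h, fun a => (hμ a).symm, h3, fun t s u e => ?_, fun t => ⟨hn t ▸ h2 t,
    by rw [← hn, ← n1, h4]⟩⟩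
  rcases eq_or_ne t 0 with rfl | ht
  · obtain rfl : u = 1 := Units.ext (by simpa using e)
    simp [cv_zero hx, hh]
  let T := Units.mk0 t ht
  have a1 : n (-T) = (n T)⁻¹ := by
    simp only [hn, _root_.mul_inv_rev, ← cv_neg hx, ← cv_neg hy, mul_assoc]
    simp
  have a2 : h u = n (u * -T) * n T := by
    rw [h4 (u * -T), h5, mul_assoc (h u), ← h4, a1, inv_mul_cancel_right]
  have a3 := h8 (-T) (-(t * u)⁻¹)
  have a4 := h8 T (u / t)
  have hu := u.ne_zero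
  rw [a1, show -(((-T : kˣ) : k) ^ 2 * -(t * u)⁻¹) = t / u by simp [T]; field_simp] at a3
  rw [show -((T : k) ^ 2 * (u / t)) = (u * -T : kˣ) by simp [T]; field_simp] at a4
  have a5 : y (s / u) * y (t * u)⁻¹ = (y (-t⁻¹))⁻¹ := by
    rw [← hy.add, ← cv_neg hy]
    congr 1
    field_simp
    linear_combination -e
  have a6 : y (-t⁻¹) * y (u / t) = y s := by
    rw [← hy.add]
    congr 1
    field_simp
    linear_combination e
  have a7 : n T = y (-t⁻¹) * x t * y (-t⁻¹) := by simp [hn, T]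
  rw [a2, ← a3, hn (u * -T), ← a4, show (-((u * -T)⁻¹ : kˣ) : k) = (t * u)⁻¹ by
    simp [T, mul_comm], cv_neg hy (t * u)⁻¹, ← a6, ← mul_assoc, ← mul_assoc, ← mul_assoc,
    ← mul_assoc, ← mul_assoc, ← mul_assoc, ← mul_assoc, a5, a7]
  group

omit H in
theorem sl2 : SL2 := fun k G _ _ _ L H hc => by
  choose P x hx using fun i => (hc i).1
  choose Q y hy c using fun i => (hc i).2.elim fun _ h => h.elim fun _ h => normal H (hx i) h
  choose μ h h1 h2 h3 h4 using fun i => one H (hx i) (hy i) (c i)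
  exact ⟨⟨μ, P, Q⟩, x, y, h, H, hx, hy, h1, h2, h3, h4, fun i t s s' r r' a b =>
    (un_neg H (cv_mem (hy i) s) (cv_mem (hy i) s') (cv_mem (hy i) r) (cv_mem (hy i) r') a b).imp
      (cv_inj (hy i)) (cv_inj (hy i))⟩

end Vale.Agent.P011IV
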